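import Vale.Agent.P305GL.Basic
import Vale.Agent.P305SC.Box

/-!
# The missing slots are made
-/

namespace Vale.Agent.P305SL

open Vale.Agent.P305E Vale.Agent.P305C Vale.Agent.P305LC Vale.Agent.P305GH Vale.Agent.P305GL
  Vale.Agent.P305SC Finset

theorem deg_le (p : Pr) (v : ℕ) : p.deg v ≤ 3 := by
  unfold Pr.deg
  split_ifs <;> omega

theorem lk_slots {H : Hs} {V : P305N.Vw} {Q F γ R s a k : ℕ} (l : Lk F H V) (h : H.OK Q F γ R)
    (hs : ∀ x, s ≤ x → x < s + k → x ∉ H.G.V) (ha : a ∈ H.O) (hw : H.w a ≠ 0) :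
    Lk F (slots H F s a k) V := by
  induction k with
  | zero => exact l
  | succ k ih =>
    have h' : ∀ x, s ≤ x → x < s + k → x ∉ H.G.V := fun x a b => hs x a (by omega)
    refine (ih h').slot (slots_ok h h' ha hw) ?_ ((slots_O _).2 (.inl ha))
    rw [slots_V]
    have := hs (s + k) (by omega) (by omega)
    simp [this]

theorem fresh {x : Pm} {s : S} {g : Gs} {cur : Option ℕ} {a : ℕ} {Nw : List ℕ}
    (h : Core x s g cur (a :: Nw)) (z : ℕ) (h1 : a + 1 ≤ z) (h2 : z < a + 1 + x.deg (s.vn a)) :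
    z ∉ g.H.G.V := by
  have := deg_le x.toPr (s.vn a)
  have e := (h.nw.2 a (by simp)).2.2 (z - (a + 1)) (by omega)
  rwa [show a + 1 + (z - (a + 1)) = z by omega] at e

/-- The slots of the first copy in the list are made. -/
theorem core_slots {x : Pm} {s : S} {g : Gs} {cur : Option ℕ} {a : ℕ} {Nw : List ℕ}
    (h : Core x s g cur (a :: Nw)) :
    Core x s { g with H := slots g.H x.F (a + 1) a (x.deg (s.vn a)) } cur Nw := by
  obtain ⟨aO, a4, -⟩ := h.nw.2 a (by simp)
  have fr := fresh h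
  have d3 := deg_le x.toPr (s.vn a)
  have aV := h.rng a (h.gh.OV aO)
  have aw : g.H.w a ≠ 0 := fun e => aV.2.1 e a4
  have vn : ∀ z, a + 1 ≤ z → z < a + 1 + x.deg (s.vn a) → z / 4 = a / 4 := fun z _ _ => by omega
  refine { h with
    gh := slots_ok h.gh fr aO aw
    lk := lk_slots h.lk h.gh fr aO aw
    out := fun v hv => (slots_O _).2 (.inl (h.out v hv))
    ndO := fun z hz => ?_
    jk := by simpa using h.jk
    rng := fun z hz => ?_
    cop := fun j a b => (slots_V _).2 (.inl (h.cop j a b))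
    sl := fun z hz => ?_
    pend := fun v hv i hi => ?_
    now := fun z hz => ?_
    nw := ⟨(List.nodup_cons.1 h.nw.1).2, fun z hz => ?_⟩
    acc := by simpa [bud] using h.acc }
  · show (slots _ _ _ _ _).nd z = _
    rw [slots_nd (.inl (by omega))]
    split_ifs with e
    · rw [h.ndO a aO, S.res, S.res, S.vn, S.vn, vn z e.1 e.2]
    · exact h.ndO z (((slots_O _).1 hz).resolve_right e)
  · rcases (slots_V _).1 hz with e | e
    · simpa using h.rng z e
    · have := (h.gh.out z (fr z e.1 e.2)).1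
      exact ⟨by omega, by simp only [slots_w, this, true_iff]; omega⟩
  · rcases (slots_slot _).1 hz with e | e
    · exact h.sl z e
    · rw [show s.vn z = s.vn a by rw [S.vn, S.vn, vn z e.1 e.2]]
      omega
  · rcases h.pend v hv i hi with e | e | e | e
    · exact .inl e
    · exact .inr (.inl ⟨(slots_slot _).2 (.inl e.1), by simpa using e.2⟩)
    · exact .inr (.inr (.inl e))
    · rcases List.mem_cons.1 e with e | e
      · have e' := (h.own v fun e => h.net.ok.zP (e ▸ hv)).2.2.2.2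
        rw [e] at e' ⊢
        rw [← e'] at hi
        refine .inr (.inl ⟨(slots_slot _).2 (.inr ⟨by omega, by omega⟩), fun c => ?_⟩)
        exact fr (a + 1 + i) (by omega) (by omega) (h.gh.slotV (h.gh.scn (by simpa using c)))
      · exact .inr (.inr (.inr e))
  · obtain ⟨a1, a2, a3⟩ := h.now z hz
    exact ⟨(slots_slot _).2 (.inl a1), by simpa using a2, (slots_fr _).2 (.inl a3)⟩
  · obtain ⟨a1, a2, a3⟩ := h.nw.2 z (by simp [hz])
    have : z ≠ a := fun e => (List.nodup_cons.1 h.nw.1).1 (e ▸ hz)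
    exact ⟨(slots_O _).2 (.inl a1), a2, fun i hi c => ((slots_V _).1 c).elim (a3 i hi) (by omega)⟩

/-- The program. -/
def slotsL {β : Type} (X : Bx β) (p : Pr) (s : S) (Nw : List ℕ) (bx : β) : M β :=
  foldM (fun z a => num (a + 1) >>= fun a' => slotsP X p.F a' a (p.deg (s.vn a)) z) bx Nw

/-- **The block SLOTS.** -/
theorem slots : SLOTS := by
  intro β _ E
  refine ⟨slotsL E.X, ?_, fun x s g cur Nw bx φ o h hI => ?_⟩
  · unfold slotsL
    refine Impl.foldM (Impl.bind (by fun_prop) (impl_slotsP E.hX ?_ ?_ ?_ ?_ ?_)) ?_ ?_ <;> fun_prop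
  have hΓ := o.big
  refine (Vt.foldM (fun pre r t => ∀ rest, Nw = pre ++ rest → ∃ H' φ',
    Core x s { g with H := H' } cur rest ∧ E.I x.B x.b 1 H'.G r φ' ∧ H'.G.scn = g.H.G.scn ∧
      t + φ' ≤ φ + x.Γ ^ 2 * pre.length) ?_ ?_).mono fun r t hr => ?_
  · rintro _ rfl
    exact ⟨g.H, φ, h, hI, rfl, by simp⟩
  · intro pre a rest z t e hz
    obtain ⟨H', φ', c1, c2, c3, c4⟩ := hz _ e
    have aV := c1.gh.OV (c1.nw.2 a (by simp)).1
    have a1 := (c1.rng a aV).1
    have a2 := c1.size_lt o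
    have a3 := c1.nc_le o
    have a4 := o.pow_le
    have a5 := o.sz
    have a6 := deg_le x.toPr (s.vn a)
    refine Vt.num_bind (by omega) ((slotsP_vt E.hX c2 (fresh c1) aV (by simp only at a2; omega)
      o.Fb (by omega)).mono ?_)
    rintro z' t' ⟨φ'', d1, d2⟩ rest' e'
    obtain rfl : rest = rest' := by simpa [e] using e'
    have c5 := core_slots c1
    refine ⟨_, φ'', c5, d1, by simpa using c3, ?_⟩
    have b1 := Nat.mul_le_mul a6 (show 2 * E.gX x.b + 1 ≤ 2 * x.Γ + 1 by have := o.gX; omega)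
    have b2 : 1000 * x.Γ ≤ x.Γ ^ 2 := by rw [sq]; exact Nat.mul_le_mul_right _ hΓ
    rw [List.length_append, List.length_singleton, Nat.mul_add]
    omega
  · obtain ⟨H', φ', c1, c2, c3, c4⟩ := hr [] (by simp)
    exact ⟨H', φ', c1, c2, c3, by rw [Nat.mul_add]; omega⟩

end Vale.Agent.P305SL
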